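import Vale.Agent.P165.TA.Schur

/-!
# The form of a symmetric kernel split into classes of pairs

Each pair has a class `(u, v)`, exchanged when the pair is reversed. If the pairs with `u + v` small
have bounded rows and the classes with `u` large have light rows, the form is small.
-/

namespace Vale.Agent.P165.TA

open Finset

variable {V : Type}

/-- The near pairs and the classes. -/
theorem form_classes_le (t : V → V → ℝ) (κ : V → V → ℕ × ℕ) {N J : ℕ} {R S R₀ w : ℝ}
    (ht : ∀ x y, 0 ≤ t x y) (hsymm : ∀ x y, t x y = t y x)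
    (hswap : ∀ x y, κ y x = (κ x y).swap)
    (hsupp : ∀ x y, t x y ≠ 0 → (κ x y).1 ≤ N ∧ (κ x y).2 ≤ N)
    (hR : 0 ≤ R) (hS : 0 ≤ S) (hR₀ : 0 ≤ R₀) (hw : 0 ≤ w) (hRS : R * S ≤ w ^ 2)
    (hcol : ∀ (x : V) (F : Finset V), ∑ y ∈ F, t x y ≤ S)
    (hnear : ∀ (x : V) (F : Finset V), (∀ y ∈ F, (κ x y).1 + (κ x y).2 ≤ J) →
      ∑ y ∈ F, t x y ≤ R₀)
    (hrow : ∀ (x : V) (u v : ℕ) (F : Finset V), J < 2 * u → (∀ y ∈ F, κ x y = (u, v)) →
      ∑ y ∈ F, t x y ≤ R)
    (F : Finset V) (f : V → ℝ) (hf : ∀ x, 0 ≤ f x) :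
    ∑ x ∈ F, ∑ y ∈ F, f x * f y * t x y ≤
      (R₀ + ((N + 1 : ℕ) : ℝ) ^ 2 * w) * ∑ x ∈ F, f x ^ 2 := by
  classical
  set σ : ℝ := ∑ x ∈ F, f x ^ 2
  have hσ : 0 ≤ σ := sum_nonneg fun x _ => sq_nonneg _
  set near : V → V → ℝ := fun x y => if (κ x y).1 + (κ x y).2 ≤ J then t x y else 0
  set part : ℕ × ℕ → V → V → ℝ :=
    fun q x y => if κ x y = q ∧ J < q.1 + q.2 then t x y else 0
  have hpart : ∀ q x y, 0 ≤ part q x y := fun q x y => by
    simp only [part]; split_ifs
    exacts [ht x y, le_rfl]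
  have hbound : ∀ q ∈ range (N + 1) ×ˢ range (N + 1),
      ∑ x ∈ F, ∑ y ∈ F, f x * f y * part q x y ≤ w * σ := by
    rintro ⟨u, v⟩ -
    by_cases hJ : J < u + v
    swap
    · refine le_of_eq_of_le ?_ (mul_nonneg hw hσ)
      exact sum_eq_zero fun x _ => sum_eq_zero fun y _ => by simp [part, hJ]
    have hr : ∀ x, ∑ y ∈ F, part (u, v) x y ≤ S ∧
        (J < 2 * u → ∑ y ∈ F, part (u, v) x y ≤ R) := fun x => by
      simp only [part]
      rw [← sum_filter]
      exact ⟨hcol x _, fun hu => hrow x u v _ hu fun y hy => (mem_filter.1 hy).2.1⟩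
    have hc : ∀ y, ∑ x ∈ F, part (u, v) x y ≤ S ∧
        (J < 2 * v → ∑ x ∈ F, part (u, v) x y ≤ R) := fun y => by
      simp only [part]
      rw [← sum_filter, sum_congr rfl fun x _ => hsymm x y]
      refine ⟨hcol y _, fun hv => hrow y v u _ hv fun x hx => ?_⟩
      rw [hswap, (mem_filter.1 hx).2.1, Prod.swap_prod_mk]
    have hfin : ∀ R' S' : ℝ, R' * S' = R * S → 0 ≤ R' → 0 ≤ S' →
        (∀ x ∈ F, ∑ y ∈ F, part (u, v) x y ≤ R') → (∀ y ∈ F, ∑ x ∈ F, part (u, v) x y ≤ S') →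
        ∑ x ∈ F, ∑ y ∈ F, f x * f y * part (u, v) x y ≤ w * σ := by
      intro R' S' h hR' hS' h1 h2
      refine (schur_le F F _ f f hR' hS' (fun x _ y _ => hpart _ x y) h1 h2).trans ?_
      rw [mul_assoc, Real.mul_self_sqrt hσ, h]
      exact mul_le_mul_of_nonneg_right (Real.sqrt_le_iff.2 ⟨hw, hRS⟩) hσ
    rcases le_total v u with hvu | hvu
    · exact hfin R S rfl hR hS (fun x _ => (hr x).2 (by omega)) fun y _ => (hc y).1
    · exact hfin S R (mul_comm _ _) hS hR (fun x _ => (hr x).1) fun y _ => (hc y).2 (by omega)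
  have hnear' : ∑ x ∈ F, ∑ y ∈ F, f x * f y * near x y ≤ R₀ * σ := by
    refine (schur_le F F _ f f hR₀ hR₀ (fun x _ y _ => ?_) (fun x _ => ?_) (fun y _ => ?_)).trans
      (le_of_eq ?_)
    · simp only [near]; split_ifs
      exacts [ht x y, le_rfl]
    · simp only [near]
      rw [← sum_filter]
      exact hnear x _ fun y hy => (mem_filter.1 hy).2
    · simp only [near]
      rw [← sum_filter, sum_congr rfl fun x _ => hsymm x y]
      refine hnear y _ fun x hx => ?_
      rw [hswap, Prod.fst_swap, Prod.snd_swap, add_comm]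
      exact (mem_filter.1 hx).2
    · rw [Real.sqrt_mul_self hR₀, mul_assoc, Real.mul_self_sqrt hσ]
  calc ∑ x ∈ F, ∑ y ∈ F, f x * f y * t x y
      ≤ ∑ x ∈ F, ∑ y ∈ F, (f x * f y * near x y +
          ∑ q ∈ range (N + 1) ×ˢ range (N + 1), f x * f y * part q x y) := by
        refine sum_le_sum fun x _ => sum_le_sum fun y _ => ?_
        rw [← mul_sum, ← mul_add]
        refine mul_le_mul_of_nonneg_left ?_ (mul_nonneg (hf x) (hf y))
        have h0 : 0 ≤ ∑ q ∈ range (N + 1) ×ˢ range (N + 1), part q x y :=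
          sum_nonneg fun q _ => hpart q x y
        simp only [near]
        split_ifs with h
        · linarith
        · by_cases hz : t x y = 0
          · rw [hz]; linarith
          obtain ⟨h1, h2⟩ := hsupp x y hz
          rw [zero_add]
          refine le_trans (le_of_eq ?_) (single_le_sum (fun q _ => hpart q x y) (a := κ x y)
            (mem_product.2 ⟨mem_range.2 (Nat.lt_succ_of_le h1), mem_range.2 (Nat.lt_succ_of_le h2)⟩))
          simp only [part]
          rw [if_pos ⟨trivial, not_le.1 h⟩]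
    _ ≤ R₀ * σ + ∑ _q ∈ range (N + 1) ×ˢ range (N + 1), w * σ := by
        simp only [sum_add_distrib]
        refine add_le_add hnear' ?_
        rw [sum_congr rfl fun x _ => sum_comm, sum_comm]
        exact sum_le_sum hbound
    _ = _ := by
        rw [sum_const, nsmul_eq_mul, card_product, card_range]
        push_cast
        ring

/-- Light rows and polynomial columns leave every class negligible. -/
theorem far_classes {A₀ A₁ L a : ℝ} (ha : 1 ≤ a) (h : A₀ * A₁ * L ^ 4 ≤ a ^ 4) (hL : 0 < L) :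
    A₀ * a ^ 2 * (1 / a ^ 2) ^ 24 * (A₁ * a ^ 10) ≤ (1 / (L * a ^ 8) ^ 2) ^ 2 := by
  have ha0 : (0 : ℝ) < a := by linarith
  rw [show A₀ * a ^ 2 * (1 / a ^ 2) ^ 24 * (A₁ * a ^ 10) = A₀ * A₁ * (a ^ 12 / a ^ 48) by ring,
    show a ^ 12 / a ^ 48 = 1 / a ^ 36 by field_simp, div_pow, one_pow, mul_one_div,
    div_le_div_iff₀ (by positivity) (by positivity)]
  have := mul_le_mul_of_nonneg_left h (pow_nonneg ha0.le 32)
  linarith

end Vale.Agent.P165.TA
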