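import Mathlib

/-!
# Repeated cuts and the sum over ancestors

If a quantity at depth `n` is at most `C T / n` times a weighted average of the same quantity at
half the depth or more, a fixed number of steps gives any power of `T / n`. Such bounds make the sum
over all ancestors a small power of the length.
-/

namespace Vale.Agent.P165.TA

open Finset

/-- Iterated cuts. -/
theorem cuts_decay {S : Type} (n : S → ℕ) (M : S → ℝ) {T CT : ℝ} {N₀ : ℕ} (hN₀ : 1 ≤ N₀)
    (hT : 0 ≤ T) (hCT : 0 ≤ CT) (hbase : ∀ s, M s ≤ T)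
    (hcut : ∀ s, N₀ ≤ n s → ∃ (I : Finset S) (w : S → ℝ),
      (∀ i ∈ I, 0 ≤ w i) ∧ ∑ i ∈ I, w i ≤ CT * T ∧ (∀ i ∈ I, n s ≤ 2 * n i) ∧
        (n s : ℝ) * M s ≤ ∑ i ∈ I, w i * M i) (k : ℕ) :
    ∀ s, 2 ^ k * N₀ ≤ n s → M s ≤ (CT * 2 ^ k) ^ k * (T / n s) ^ k * T := by
  induction k with
  | zero => intro s _; simpa using hbase s
  | succ k ih =>
    intro s hs
    have h2 : N₀ ≤ n s :=
      le_trans (Nat.le_mul_of_pos_left _ (Nat.two_pow_pos _)) hs
    obtain ⟨I, w, hw, hwsum, hnx, hM⟩ := hcut s h2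
    have hn0 : (0 : ℝ) < n s := by exact_mod_cast lt_of_lt_of_le hN₀ h2
    set B : ℝ := (CT * 2 ^ k) ^ k * (2 * T / n s) ^ k * T
    have hstep : ∀ i ∈ I, M i ≤ B := by
      intro i hi
      have h := hnx i hi
      refine (ih i ?_).trans ?_
      · rw [pow_succ] at hs
        linarith
      · refine mul_le_mul_of_nonneg_right (mul_le_mul_of_nonneg_left (pow_le_pow_left₀
          (by positivity) ?_ k) (by positivity)) hT
        have h' : (n s : ℝ) ≤ 2 * (n i : ℝ) := by exact_mod_cast h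
        rw [div_le_div_iff₀ (by linarith) hn0]
        nlinarith
    have hsum : (n s : ℝ) * M s ≤ CT * T * B := by
      refine hM.trans ((sum_le_sum fun i hi => mul_le_mul_of_nonneg_left (hstep i hi) (hw i hi)).trans ?_)
      rw [← sum_mul]
      exact mul_le_mul_of_nonneg_right hwsum (by positivity)
    calc M s ≤ CT * T * B / n s := by rw [le_div_iff₀ hn0, mul_comm]; exact hsum
      _ = CT * (CT * 2 ^ k * 2) ^ k * (T / n s) ^ (k + 1) * T := by
        simp only [B]
        rw [show 2 * T / (n s : ℝ) = 2 * (T / n s) by ring, pow_succ, mul_pow _ (2 : ℝ),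
          mul_pow (2 : ℝ) (T / n s)]
        ring
      _ ≤ _ := by
        refine mul_le_mul_of_nonneg_right (mul_le_mul_of_nonneg_right ?_ (by positivity)) hT
        rw [mul_assoc CT (2 ^ k) 2, ← pow_succ, pow_succ (CT * 2 ^ (k + 1)) k, mul_comm CT]
        refine mul_le_mul_of_nonneg_left ?_ (by positivity)
        exact le_mul_of_one_le_right hCT (one_le_pow₀ (by norm_num))

/-- The sum over the ancestors, squared and with one middle factor, is a small power of the
length. -/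
theorem exists_sum_decay {ε : ℝ} (hε : 0 < ε) :
    ∃ k : ℕ, ∀ (C : ℝ) (N₁ : ℕ), 0 ≤ C → ∃ K₀ : ℕ, ∀ K : ℕ, K₀ ≤ K → ∀ x : ℝ,
      x = (K : ℝ) ^ (ε / 16) → ∀ (m : ℕ) (s : ℕ → ℝ), (m : ℝ) ≤ C * ((K : ℝ) + 1) →
      (∀ i, 0 ≤ s i) → (∀ i, s i ≤ C * x ^ 2) →
      (∀ i : ℕ, N₁ ≤ i → s i ≤ C * x ^ 2 * (x / i) ^ k) →
        (∑ i ∈ range m, s i) ^ 2 * (C * x ^ 2) ≤ (K : ℝ) ^ ε := by
  obtain ⟨k, hk⟩ := exists_nat_ge (2 / (ε / 16))
  rw [div_le_iff₀ (by positivity)] at hk
  refine ⟨k, fun C N₁ hC => ?_⟩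
  set D : ℝ := C * 3 + C * (2 * C)
  set B : ℝ := D ^ 2 * C + (N₁ : ℝ)
  obtain ⟨K₁, hK₁⟩ := Filter.eventually_atTop.1
    (((tendsto_rpow_atTop (show (0 : ℝ) < ε / 8 by positivity)).comp
      tendsto_natCast_atTop_atTop).eventually (Filter.eventually_ge_atTop B))
  refine ⟨K₁ + 1, fun K hK x hx m s hm hs0 hs hsk => ?_⟩
  have hK1 : (1 : ℝ) ≤ K := by exact_mod_cast (show 1 ≤ K by omega)
  have hx1 : 1 ≤ x := hx ▸ Real.one_le_rpow hK1 (by positivity)
  have hx0 : 0 < x := by linarith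
  have hpow : ∀ i : ℕ, x ^ i = (K : ℝ) ^ (ε / 16 * i) := fun i => by
    rw [hx, ← Real.rpow_natCast, ← Real.rpow_mul (by linarith)]
  have hBx : B ≤ x ^ 2 := by
    rw [hpow, show ε / 16 * ((2 : ℕ) : ℝ) = ε / 8 by push_cast; ring]
    exact hK₁ K (by omega)
  set J := ⌈x ^ 2⌉₊
  have hsmall : ∑ i ∈ (range m).filter (fun i => i < J), s i ≤ C * x ^ 2 * (2 * x ^ 2) := by
    refine (sum_le_card_nsmul _ _ _ fun i _ => hs i).trans ?_
    rw [nsmul_eq_mul, mul_comm]
    refine mul_le_mul_of_nonneg_left ?_ (by positivity)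
    have h1 : (((range m).filter fun i => i < J).card : ℝ) ≤ J := by
      exact_mod_cast (card_le_card fun i hi => mem_range.2 (mem_filter.1 hi).2).trans_eq (card_range J)
    have := Nat.ceil_lt_add_one (show 0 ≤ x ^ 2 by positivity)
    have := one_le_pow₀ (n := 2) hx1
    linarith
  have hbig : ∑ i ∈ (range m).filter (fun i => ¬ i < J), s i ≤ C * (2 * C) * x ^ 4 := by
    refine (sum_le_card_nsmul _ _ (C * x ^ 2 * (1 / x) ^ k) fun i hi => ?_).trans ?_
    · have hi' : (J : ℝ) ≤ i := by exact_mod_cast not_lt.1 (mem_filter.1 hi).2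
      have hxi : x ^ 2 ≤ (i : ℝ) := (Nat.le_ceil _).trans hi'
      have hN : N₁ ≤ i := by
        have : 0 ≤ D ^ 2 * C := by positivity
        exact_mod_cast (show (N₁ : ℝ) ≤ i by linarith)
      refine (hsk i hN).trans (mul_le_mul_of_nonneg_left (pow_le_pow_left₀ (by positivity) ?_ k)
        (by positivity))
      rw [div_le_div_iff₀ (by nlinarith) hx0]
      nlinarith
    rw [nsmul_eq_mul]
    have hcard : (((range m).filter fun i => ¬ i < J).card : ℝ) ≤ 2 * C * K := by
      refine le_trans (by exact_mod_cast (card_filter_le _ _).trans_eq (card_range m)) (hm.trans ?_)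
      nlinarith
    have hxk : (K : ℝ) ^ 2 ≤ x ^ k := by
      rw [hpow, ← Real.rpow_natCast (K : ℝ) 2]
      exact Real.rpow_le_rpow_of_exponent_le hK1 (by push_cast; linarith)
    calc (((range m).filter fun i => ¬ i < J).card : ℝ) * (C * x ^ 2 * (1 / x) ^ k)
        ≤ 2 * C * K * (C * x ^ 2 * (1 / (K : ℝ) ^ 2)) := by
          refine mul_le_mul hcard (mul_le_mul_of_nonneg_left ?_ (by positivity)) (by positivity)
            (by positivity)
          rw [one_div_pow]
          exact one_div_le_one_div_of_le (by positivity) hxk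
      _ = C * (2 * C) * x ^ 2 * (1 / K) := by field_simp
      _ ≤ C * (2 * C) * x ^ 4 := by
          refine le_trans (mul_le_of_le_one_right (by positivity) ((div_le_one (by linarith)).2 hK1)) ?_
          exact mul_le_mul_of_nonneg_left (pow_le_pow_right₀ hx1 (by norm_num)) (by positivity)
  have hsum : ∑ i ∈ range m, s i ≤ D * x ^ 4 := by
    rw [← sum_filter_add_sum_filter_not (range m) (fun i => i < J)]
    refine (add_le_add hsmall hbig).trans ?_
    simp only [D]
    nlinarith [mul_nonneg hC (pow_nonneg hx0.le 4)]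
  calc (∑ i ∈ range m, s i) ^ 2 * (C * x ^ 2) ≤ (D * x ^ 4) ^ 2 * (C * x ^ 2) :=
        mul_le_mul_of_nonneg_right (pow_le_pow_left₀ (sum_nonneg fun i _ => hs0 i) hsum 2)
          (by positivity)
    _ = D ^ 2 * C * x ^ 10 := by ring
    _ ≤ x ^ 2 * x ^ 10 := mul_le_mul_of_nonneg_right
        (by linarith [Nat.cast_nonneg (α := ℝ) N₁]) (by positivity)
    _ = (K : ℝ) ^ (ε / 16 * ((12 : ℕ) : ℝ)) := by rw [← pow_add, hpow]
    _ ≤ _ := Real.rpow_le_rpow_of_exponent_le hK1 (by push_cast; linarith)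

end Vale.Agent.P165.TA
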