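import Mathlib

/-!
# Schur's test for finite nonnegative kernels

A kernel with rows at most `r` and columns at most `c` has bilinear form at most `√(r c)`; a product
of three kernels is bounded by the product of the three bounds.
-/

namespace Vale.Agent.P165.TA

open Finset

variable {X Y : Type}

/-- Schur's test. -/
theorem schur_le (F : Finset X) (H : Finset Y) (A : X → Y → ℝ) (f : X → ℝ) (g : Y → ℝ) {r c : ℝ}
    (hr : 0 ≤ r) (hc : 0 ≤ c) (hA : ∀ x ∈ F, ∀ y ∈ H, 0 ≤ A x y)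
    (hrow : ∀ x ∈ F, ∑ y ∈ H, A x y ≤ r) (hcol : ∀ y ∈ H, ∑ x ∈ F, A x y ≤ c) :
    ∑ x ∈ F, ∑ y ∈ H, f x * g y * A x y ≤
      Real.sqrt (r * c) * Real.sqrt (∑ x ∈ F, f x ^ 2) * Real.sqrt (∑ y ∈ H, g y ^ 2) := by
  classical
  have h0 : ∀ q ∈ F ×ˢ H, 0 ≤ A q.1 q.2 := fun q hq =>
    hA _ (mem_product.1 hq).1 _ (mem_product.1 hq).2
  calc ∑ x ∈ F, ∑ y ∈ H, f x * g y * A x y
      = ∑ q ∈ F ×ˢ H, (f q.1 * Real.sqrt (A q.1 q.2)) * (g q.2 * Real.sqrt (A q.1 q.2)) := by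
        rw [sum_product]
        refine sum_congr rfl fun x hx => sum_congr rfl fun y hy => ?_
        rw [mul_mul_mul_comm, Real.mul_self_sqrt (hA x hx y hy)]
    _ ≤ Real.sqrt (r * ∑ x ∈ F, f x ^ 2) * Real.sqrt (c * ∑ y ∈ H, g y ^ 2) := by
        refine (Real.sum_mul_le_sqrt_mul_sqrt _ _ _).trans (mul_le_mul (Real.sqrt_le_sqrt ?_)
          (Real.sqrt_le_sqrt ?_) (Real.sqrt_nonneg _) (Real.sqrt_nonneg _))
        · rw [sum_congr rfl fun q hq => by rw [mul_pow, Real.sq_sqrt (h0 q hq)], sum_product,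
            mul_sum]
          refine sum_le_sum fun x hx => ?_
          simp only
          rw [← mul_sum, mul_comm r]
          exact mul_le_mul_of_nonneg_left (hrow x hx) (sq_nonneg _)
        · rw [sum_congr rfl fun q hq => by rw [mul_pow, Real.sq_sqrt (h0 q hq)], sum_product_right,
            mul_sum]
          refine sum_le_sum fun y hy => ?_
          simp only
          rw [← mul_sum, mul_comm c]
          exact mul_le_mul_of_nonneg_left (hcol y hy) (sq_nonneg _)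
    _ = _ := by
        rw [Real.sqrt_mul hr, Real.sqrt_mul hc, Real.sqrt_mul hr]
        ring

/-- The norm of the image under a kernel with rows at most `r` and columns at most `c`. -/
theorem schur_image_le (F : Finset X) (H : Finset Y) (A : X → Y → ℝ) (f : X → ℝ) {r c : ℝ}
    (hr : 0 ≤ r) (hc : 0 ≤ c) (hA : ∀ x ∈ F, ∀ y ∈ H, 0 ≤ A x y)
    (hrow : ∀ x ∈ F, ∑ y ∈ H, A x y ≤ r) (hcol : ∀ y ∈ H, ∑ x ∈ F, A x y ≤ c) :
    Real.sqrt (∑ y ∈ H, (∑ x ∈ F, f x * A x y) ^ 2) ≤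
      Real.sqrt (r * c) * Real.sqrt (∑ x ∈ F, f x ^ 2) := by
  set G : Y → ℝ := fun y => ∑ x ∈ F, f x * A x y
  have h := schur_le F H A f G hr hc hA hrow hcol
  have e : ∑ x ∈ F, ∑ y ∈ H, f x * G y * A x y = ∑ y ∈ H, G y ^ 2 := by
    rw [sum_comm]
    refine sum_congr rfl fun y _ => ?_
    rw [sq, show G y * G y = G y * ∑ x ∈ F, f x * A x y from rfl, mul_sum]
    exact sum_congr rfl fun x _ => by ring
  rw [e] at h
  set N := Real.sqrt (∑ y ∈ H, G y ^ 2)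
  have hN : N * N = ∑ y ∈ H, G y ^ 2 := Real.mul_self_sqrt (sum_nonneg fun y _ => sq_nonneg _)
  rcases eq_or_lt_of_le (Real.sqrt_nonneg (∑ y ∈ H, G y ^ 2)) with h0 | h0
  · rw [show N = 0 from h0.symm]
    positivity
  · exact le_of_mul_le_mul_right (hN.trans_le h) h0

/-- The product of three kernels. -/
theorem form_prod_le (F : Finset X) (H : Finset X) (Z : Finset Y) (A B : X → Y → ℝ)
    (D : Y → Y → ℝ) (f g : X → ℝ) {ra ca rb cb rd : ℝ}
    (hra : 0 ≤ ra) (hca : 0 ≤ ca) (hrb : 0 ≤ rb) (hcb : 0 ≤ cb) (hrd : 0 ≤ rd)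
    (hA : ∀ x ∈ F, ∀ z ∈ Z, 0 ≤ A x z) (hArow : ∀ x ∈ F, ∑ z ∈ Z, A x z ≤ ra)
    (hAcol : ∀ z ∈ Z, ∑ x ∈ F, A x z ≤ ca)
    (hB : ∀ x ∈ H, ∀ z ∈ Z, 0 ≤ B x z) (hBrow : ∀ x ∈ H, ∑ z ∈ Z, B x z ≤ rb)
    (hBcol : ∀ z ∈ Z, ∑ x ∈ H, B x z ≤ cb)
    (hD : ∀ z ∈ Z, ∀ w ∈ Z, 0 ≤ D z w) (hDrow : ∀ z ∈ Z, ∑ w ∈ Z, D z w ≤ rd)
    (hDcol : ∀ w ∈ Z, ∑ z ∈ Z, D z w ≤ rd) :
    ∑ x ∈ F, ∑ y ∈ H, f x * g y * ∑ z ∈ Z, ∑ w ∈ Z, A x z * D z w * B y w ≤
      Real.sqrt (ra * ca) * rd * Real.sqrt (rb * cb) *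
        Real.sqrt (∑ x ∈ F, f x ^ 2) * Real.sqrt (∑ y ∈ H, g y ^ 2) := by
  set u : Y → ℝ := fun z => ∑ x ∈ F, f x * A x z
  set v : Y → ℝ := fun w => ∑ y ∈ H, g y * B y w
  calc ∑ x ∈ F, ∑ y ∈ H, f x * g y * ∑ z ∈ Z, ∑ w ∈ Z, A x z * D z w * B y w
      = ∑ z ∈ Z, ∑ w ∈ Z, u z * v w * D z w := by
        simp only [mul_sum]
        rw [sum_congr rfl fun x _ => sum_comm, sum_comm]
        refine sum_congr rfl fun z _ => ?_
        rw [sum_congr rfl fun x _ => sum_comm, sum_comm]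
        refine sum_congr rfl fun w _ => ?_
        simp only [u, v]
        rw [sum_mul_sum, sum_mul]
        refine sum_congr rfl fun x _ => ?_
        rw [sum_mul]
        exact sum_congr rfl fun y _ => by ring
    _ ≤ Real.sqrt (rd * rd) * Real.sqrt (∑ z ∈ Z, u z ^ 2) * Real.sqrt (∑ w ∈ Z, v w ^ 2) :=
        schur_le Z Z D u v hrd hrd hD hDrow hDcol
    _ ≤ rd * (Real.sqrt (ra * ca) * Real.sqrt (∑ x ∈ F, f x ^ 2)) *
          (Real.sqrt (rb * cb) * Real.sqrt (∑ y ∈ H, g y ^ 2)) := by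
        rw [Real.sqrt_mul_self hrd]
        exact mul_le_mul (mul_le_mul_of_nonneg_left (schur_image_le F Z A f hra hca hA hArow hAcol)
          hrd) (schur_image_le H Z B g hrb hcb hB hBrow hBcol) (Real.sqrt_nonneg _) (by positivity)
    _ = _ := by ring

end Vale.Agent.P165.TA
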